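import Vale.Agent.P189.Bdl.B1

set_option autoImplicit false

open MeasureTheory
open scoped ENNReal

namespace Vale.Agent.Results.P189.NotFixedPrice

open Vale.Agent.P189

theorem result :
    (∃ (Γ : Type) (_ : Group Γ), Countable Γ ∧ Group.FG Γ ∧
      (∃ (X : Type) (_ : MeasurableSpace X) (_ : StandardBorelSpace X) (μ : Measure X)
        (_ : IsProbabilityMeasure μ) (_ : MulAction Γ X) (_ : MeasurableConstSMul Γ X)
        (_ : SMulInvariantMeasure Γ X μ),
        EssentiallyFree Γ X μ ∧ 1 + (81 : ℝ≥0∞)⁻¹ ≤ actionCost Γ X μ) ∧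
      (∀ ε : ℝ≥0∞, 0 < ε →
        ∃ (X : Type) (_ : MeasurableSpace X) (_ : StandardBorelSpace X) (μ : Measure X)
          (_ : IsProbabilityMeasure μ) (_ : MulAction Γ X) (_ : MeasurableConstSMul Γ X)
          (_ : SMulInvariantMeasure Γ X μ),
          EssentiallyFree Γ X μ ∧ actionCost Γ X μ ≤ 1 + ε)) ∧
    ¬ ∀ (Γ : Type) [Group Γ] [Countable Γ], ∃ c : ℝ≥0∞, HasFixedPrice Γ c :=
  ⟨exists_two_costs, not_fixed_price⟩

end Vale.Agent.Results.P189.NotFixedPrice
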